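import Mathlib

/-!
An elementary inequality used for the one-sided subcube bound on level-one Fourier weight:
for natural numbers `m ≤ c ≤ d`, `1 ≤ d`, and `t = 1 / √d`,
`(2 m - c) t ≤ (1 + t) ^ m (1 - t) ^ (c - m)`.
-/

namespace Vale.Agent.Lib.P047.helper3

/-- second order binomial lower bound -/
theorem one_add_pow_ge (t : ℝ) (ht : 0 ≤ t) (e : ℕ) :
    1 + (e : ℝ) * t + (e : ℝ) * ((e : ℝ) - 1) / 2 * t ^ 2 ≤ (1 + t) ^ e := by
  induction e with
  | zero => simp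
  | succ e ih =>
    have h1 : (0 : ℝ) ≤ (e : ℝ) := Nat.cast_nonneg e
    have h2 : 0 ≤ (e : ℝ) * ((e : ℝ) - 1) / 2 * t ^ 3 := by
      rcases Nat.eq_zero_or_pos e with h | h
      · subst h; simp
      · have : (1 : ℝ) ≤ (e : ℝ) := by exact_mod_cast h
        have h3 : 0 ≤ (e : ℝ) * ((e : ℝ) - 1) := mul_nonneg h1 (by linarith)
        positivity
    have h4 : (1 + t) ^ (e + 1) = (1 + t) * (1 + t) ^ e := by ring
    rw [h4]
    have h5 : (1 + t) * (1 + (e : ℝ) * t + (e : ℝ) * ((e : ℝ) - 1) / 2 * t ^ 2)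
        ≤ (1 + t) * (1 + t) ^ e := mul_le_mul_of_nonneg_left ih (by linarith)
    push_cast
    nlinarith [h2, h5]

/-- for `e ≥ 1` and `0 ≤ t ≤ 1`: `2 e t ≤ (1 + t) ^ e` -/
theorem two_mul_le_one_add_pow (t : ℝ) (ht : 0 ≤ t) (ht1 : t ≤ 1) (e : ℕ) (he : 1 ≤ e) :
    2 * (e : ℝ) * t ≤ (1 + t) ^ e := by
  have h := one_add_pow_ge t ht e
  refine le_trans ?_ h
  have he1 : (1 : ℝ) ≤ (e : ℝ) := by exact_mod_cast he
  rcases Nat.lt_or_ge e 2 with h2 | h2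
  · have : e = 1 := by omega
    subst this
    simp
    linarith
  · have he2 : (2 : ℝ) ≤ (e : ℝ) := by exact_mod_cast h2
    have hsq : 0 ≤ (1 - (e : ℝ) * t / 2) ^ 2 := sq_nonneg _
    have ht2 : 0 ≤ t ^ 2 := sq_nonneg t
    have hq : (e : ℝ) ^ 2 / 4 ≤ (e : ℝ) * ((e : ℝ) - 1) / 2 := by nlinarith
    have : (e : ℝ) ^ 2 / 4 * t ^ 2 ≤ (e : ℝ) * ((e : ℝ) - 1) / 2 * t ^ 2 :=
      mul_le_mul_of_nonneg_right hq ht2
    nlinarith

theorem key_ineq (d m c : ℕ) (hd : 1 ≤ d) (hm : m ≤ c) (hc : c ≤ d) :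
    ((2 * m : ℝ) - c) * (1 / Real.sqrt d) ≤
      (1 + 1 / Real.sqrt d) ^ m * (1 - 1 / Real.sqrt d) ^ (c - m) := by
  set t : ℝ := 1 / Real.sqrt d with ht_def
  have hd1 : (1 : ℝ) ≤ (d : ℝ) := by exact_mod_cast hd
  have hsq1 : 1 ≤ Real.sqrt d := by
    rw [show (1 : ℝ) = Real.sqrt 1 by simp]
    exact Real.sqrt_le_sqrt hd1
  have hsqpos : 0 < Real.sqrt d := by linarith
  have ht0 : 0 < t := by positivity
  have ht1 : t ≤ 1 := by
    rw [ht_def, div_le_one hsqpos]; exact hsq1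
  have hdt : (d : ℝ) * t ^ 2 = 1 := by
    rw [ht_def]
    field_simp
    rw [Real.sq_sqrt (by linarith)]
  have hR0 : 0 ≤ (1 + t) ^ m * (1 - t) ^ (c - m) :=
    mul_nonneg (pow_nonneg (by linarith) _) (pow_nonneg (by linarith) _)
  rcases Nat.lt_or_ge c (2 * m) with hlt | hge
  · -- e = 2m - c ≥ 1
    obtain ⟨e, he⟩ : ∃ e, 2 * m = c + e := ⟨2 * m - c, by omega⟩
    have he1 : 1 ≤ e := by omega
    obtain ⟨k, hk⟩ : ∃ k, c = m + k := ⟨c - m, by omega⟩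
    have hmk : m = k + e := by omega
    have hck : c - m = k := by omega
    rw [hck]
    have hcast : ((2 * m : ℝ) - c) = (e : ℝ) := by
      have : ((2 * m : ℕ) : ℝ) = ((c + e : ℕ) : ℝ) := by rw [he]
      push_cast at this
      linarith
    rw [hcast]
    have hsplit : (1 + t) ^ m * (1 - t) ^ k = (1 - t ^ 2) ^ k * (1 + t) ^ e := by
      rw [hmk, pow_add, show (1 - t ^ 2) = (1 + t) * (1 - t) by ring, mul_pow]
      ring
    rw [hsplit]
    -- Bernoulli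
    have hb : 1 + (k : ℝ) * (-(t ^ 2)) ≤ (1 + -(t ^ 2)) ^ k :=
      one_add_mul_le_pow (by nlinarith) k
    have hb' : 1 - (k : ℝ) * t ^ 2 ≤ (1 - t ^ 2) ^ k := by
      have : (1 + -(t ^ 2)) = 1 - t ^ 2 := by ring
      rw [this] at hb
      linarith
    have hkd : (2 * (k : ℝ) + e) ≤ d := by
      have : 2 * k + e ≤ d := by omega
      exact_mod_cast this
    have hkt : (k : ℝ) * t ^ 2 ≤ 1 / 2 := by
      have ht2 : 0 ≤ t ^ 2 := sq_nonneg t
      have h1 : (2 * (k : ℝ) + e) * t ^ 2 ≤ (d : ℝ) * t ^ 2 :=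
        mul_le_mul_of_nonneg_right hkd ht2
      have h2 : 0 ≤ (e : ℝ) * t ^ 2 := mul_nonneg (Nat.cast_nonneg e) ht2
      nlinarith
    have hhalf : (1 : ℝ) / 2 ≤ (1 - t ^ 2) ^ k := by linarith
    have hpow : 2 * (e : ℝ) * t ≤ (1 + t) ^ e :=
      two_mul_le_one_add_pow t ht0.le ht1 e he1
    have het : 0 ≤ 2 * (e : ℝ) * t := by positivity
    calc (e : ℝ) * t = (1 / 2) * (2 * (e : ℝ) * t) := by ring
      _ ≤ (1 - t ^ 2) ^ k * (1 + t) ^ e := by
          apply mul_le_mul hhalf hpow het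
          linarith
  · -- 2m ≤ c: left side is nonpositive
    have hle : ((2 * m : ℝ) - c) ≤ 0 := by
      have : ((2 * m : ℕ) : ℝ) ≤ (c : ℝ) := by exact_mod_cast hge
      push_cast at this
      linarith
    have : ((2 * m : ℝ) - c) * t ≤ 0 := mul_nonpos_of_nonpos_of_nonneg hle ht0.le
    linarith

end Vale.Agent.Lib.P047.helper3
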