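import Mathlib
import Vale.Agent.Lib.P047.Defs
import Vale.Agent.Lib.P047.helper3.KeyIneq

/-!
One-sided subcube bound for the level-one Fourier weight.

If one level set of `f : {-1,1}^n → {-1,1}` is a (fractional) disjoint union of subcubes of
codimension at most `d`, then `(sum_i |fhat({i})|)^2 ≤ 4 d`.  The proof compares the uniform
measure with the product measure of bias `1 / √d`.
-/

namespace Vale.Agent.Lib.P047.helper3

open Vale.Agent.Lib.P047

variable {n : ℕ}

/-- real value of a sign -/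
def rv (a : ℤˣ) : ℝ := ((a : ℤ) : ℝ)

theorem rv_one : rv 1 = 1 := by simp [rv]

theorem rv_neg_one : rv (-1) = -1 := by simp [rv]

theorem rv_mul (a b : ℤˣ) : rv (a * b) = rv a * rv b := by simp [rv]

theorem rv_cases (a : ℤˣ) : a = 1 ∨ a = -1 := Int.units_eq_one_or a

theorem rv_sq (a : ℤˣ) : rv a * rv a = 1 := by
  rcases rv_cases a with h | h <;> subst h <;> simp [rv]

theorem sum_units (g : ℤˣ → ℝ) : ∑ a : ℤˣ, g a = g 1 + g (-1) := by
  have h : (Finset.univ : Finset ℤˣ) = {1, -1} := by decide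
  rw [h, Finset.sum_pair (by decide)]

/-- sum over the cube of a product function -/
theorem sum_prod_cube (g : Fin n → ℤˣ → ℝ) :
    ∑ x : Fin n → ℤˣ, ∏ i, g i (x i) = ∏ i, (g i 1 + g i (-1)) := by
  have h := Finset.prod_univ_sum (fun (_ : Fin n) => (Finset.univ : Finset ℤˣ)) g
  rw [Fintype.piFinset_univ] at h
  rw [← h]
  apply Finset.prod_congr rfl
  intro i _
  exact sum_units (g i)

/-- sum over a subcube of a product function -/
theorem sum_subcube (J : Finset (Fin n)) (v : Fin n → ℤˣ) (h : Fin n → ℤˣ → ℝ) :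
    ∑ x : Fin n → ℤˣ, (if ∀ i ∈ J, x i = v i then ∏ i, h i (x i) else 0)
      = ∏ i, (if i ∈ J then h i (v i) else h i 1 + h i (-1)) := by
  have h1 : ∀ x : Fin n → ℤˣ, (if ∀ i ∈ J, x i = v i then ∏ i, h i (x i) else 0)
      = ∏ i, (if (i ∈ J → x i = v i) then h i (x i) else 0) := by
    intro x
    rw [Finset.prod_ite_zero]
    simp
  rw [Finset.sum_congr rfl (fun x _ => h1 x)]
  rw [sum_prod_cube (fun i a => if (i ∈ J → a = v i) then h i a else 0)]
  apply Finset.prod_congr rfl
  intro i _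
  by_cases hi : i ∈ J
  · simp only [hi, forall_true_left, if_true]
    rcases rv_cases (v i) with hv | hv
    · rw [hv]; simp
    · rw [hv]; simp
  · simp [hi]

theorem prod_ite_mem (J : Finset (Fin n)) (A : Fin n → ℝ) (c : ℝ) :
    ∏ i, (if i ∈ J then A i else c) = (∏ i ∈ J, A i) * c ^ (n - J.card) := by
  rw [Finset.prod_ite]
  have h1 : (Finset.univ.filter (fun i : Fin n => i ∈ J)) = J := by
    ext i; simp
  have h2 : (Finset.univ.filter (fun i : Fin n => ¬ i ∈ J)) = Jᶜ := by
    ext i; simp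
  rw [h1, h2, Finset.prod_const, Finset.card_compl, Fintype.card_fin]

/-- total mass of the biased weight -/
theorem sum_weight (τ : Fin n → ℤˣ) (t : ℝ) :
    ∑ x : Fin n → ℤˣ, ∏ i, (1 + t * rv (τ i) * rv (x i)) = 2 ^ n := by
  rw [sum_prod_cube (fun i a => 1 + t * rv (τ i) * rv a)]
  have : ∀ i : Fin n, (1 + t * rv (τ i) * rv 1) + (1 + t * rv (τ i) * rv (-1)) = 2 := by
    intro i; rw [rv_one, rv_neg_one]; ring
  rw [Finset.prod_congr rfl (fun i _ => this i)]
  simp

/-- mass of a subcube under the biased weight -/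
theorem sum_weight_subcube (J : Finset (Fin n)) (v τ : Fin n → ℤˣ) (t : ℝ) :
    ∑ x : Fin n → ℤˣ, (if ∀ i ∈ J, x i = v i then ∏ i, (1 + t * rv (τ i) * rv (x i)) else 0)
      = (∏ i ∈ J, (1 + t * rv (τ i) * rv (v i))) * 2 ^ (n - J.card) := by
  rw [sum_subcube J v (fun i a => 1 + t * rv (τ i) * rv a)]
  rw [← prod_ite_mem]
  apply Finset.prod_congr rfl
  intro i _
  by_cases hi : i ∈ J
  · simp [hi]
  · simp only [hi, if_false]; rw [rv_one, rv_neg_one]; ring

/-- first moment of a subcube -/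
theorem sum_coord_subcube (J : Finset (Fin n)) (v : Fin n → ℤˣ) (j : Fin n) :
    ∑ x : Fin n → ℤˣ, (if ∀ i ∈ J, x i = v i then rv (x j) else 0)
      = if j ∈ J then rv (v j) * 2 ^ (n - J.card) else 0 := by
  have h1 : ∀ x : Fin n → ℤˣ, rv (x j) = ∏ i, (if i = j then rv (x i) else 1) := by
    intro x
    rw [Finset.prod_ite_eq' Finset.univ j (fun i => rv (x i))]
    simp
  have h2 : ∀ x : Fin n → ℤˣ, (if ∀ i ∈ J, x i = v i then rv (x j) else 0)
      = (if ∀ i ∈ J, x i = v i then ∏ i, (fun i a => if i = j then rv a else 1) i (x i) else 0) := by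
    intro x
    rw [h1 x]
  rw [Finset.sum_congr rfl (fun x _ => h2 x)]
  rw [sum_subcube J v (fun i a => if i = j then rv a else 1)]
  by_cases hj : j ∈ J
  · rw [if_pos hj]
    have h3 : ∀ i : Fin n, (if i ∈ J then (fun i a => if i = j then rv a else (1 : ℝ)) i (v i)
        else (fun i a => if i = j then rv a else (1 : ℝ)) i 1
          + (fun i a => if i = j then rv a else (1 : ℝ)) i (-1))
        = (if i ∈ J then (if i = j then rv (v j) else 1) else 2) := by
      intro i
      by_cases hi : i ∈ J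
      · simp only [hi, if_true]
        by_cases hij : i = j
        · subst hij; simp
        · simp [hij]
      · have hij : i ≠ j := fun h => hi (h ▸ hj)
        simp only [hi, if_false, hij]
        norm_num
    rw [Finset.prod_congr rfl (fun i _ => h3 i)]
    rw [prod_ite_mem J (fun i => if i = j then rv (v j) else 1) 2]
    rw [Finset.prod_ite_eq' J j (fun _ => rv (v j))]
    simp [hj]
  · rw [if_neg hj]
    apply Finset.prod_eq_zero (Finset.mem_univ j)
    simp only [hj, if_false, if_true]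
    rw [rv_one, rv_neg_one]; ring

theorem rv_mul_ite (a b : ℤˣ) : rv a * rv b = if a * b = 1 then 1 else -1 := by
  rcases rv_cases a with ha | ha <;> rcases rv_cases b with hb | hb <;> subst ha <;> subst hb <;>
    simp [rv]

/-- the inequality for one subcube of codimension at most `d` -/
theorem cube_ineq (J : Finset (Fin n)) (v τ : Fin n → ℤˣ) (d : ℕ) (hd : 1 ≤ d)
    (hJ : J.card ≤ d) :
    (∑ i ∈ J, rv (τ i) * rv (v i)) * (1 / Real.sqrt d)
      ≤ ∏ i ∈ J, (1 + (1 / Real.sqrt d) * rv (τ i) * rv (v i)) := by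
  set t : ℝ := 1 / Real.sqrt d with ht
  set m : ℕ := (J.filter (fun i => τ i * v i = 1)).card with hm
  have hcard : m + (J.filter (fun i => ¬ τ i * v i = 1)).card = J.card :=
    Finset.card_filter_add_card_filter_not (fun i => τ i * v i = 1)
  have hmc : m ≤ J.card := Finset.card_filter_le _ _
  have hneg : (J.filter (fun i => ¬ τ i * v i = 1)).card = J.card - m := by omega
  have hsum : (∑ i ∈ J, rv (τ i) * rv (v i)) = (2 * m : ℝ) - (J.card : ℝ) := by
    rw [Finset.sum_congr rfl (fun i _ => rv_mul_ite (τ i) (v i))]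
    rw [Finset.sum_ite, Finset.sum_const, Finset.sum_const, hneg]
    simp only [nsmul_eq_mul, mul_one, mul_neg]
    rw [← hm]
    have : ((J.card - m : ℕ) : ℝ) = (J.card : ℝ) - (m : ℝ) := by
      rw [Nat.cast_sub hmc]
    rw [this]
    ring
  have hprod : (∏ i ∈ J, (1 + t * rv (τ i) * rv (v i)))
      = (1 + t) ^ m * (1 - t) ^ (J.card - m) := by
    have h1 : ∀ i ∈ J, (1 + t * rv (τ i) * rv (v i))
        = if τ i * v i = 1 then 1 + t else 1 - t := by
      intro i _
      rw [mul_assoc, rv_mul_ite]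
      split_ifs <;> ring
    rw [Finset.prod_congr rfl h1, Finset.prod_ite, Finset.prod_const, Finset.prod_const, hneg]
  rw [hsum, hprod]
  exact key_ineq d m J.card hd hmc hJ

theorem sum_coord_cube (j : Fin n) : ∑ x : Fin n → ℤˣ, rv (x j) = 0 := by
  have h := sum_coord_subcube (∅ : Finset (Fin n)) (fun _ => (1 : ℤˣ)) j
  simpa using h

section Main

variable {ι : Type} [Fintype ι] (f : (Fin n → ℤˣ) → ℤˣ) (b : ℤˣ)
  (J : ι → Finset (Fin n)) (v : ι → Fin n → ℤˣ) (w : ι → ℝ)

/-- decomposition of a sum over the level set `f = b` along the weighted subcubes -/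
theorem cover_sum
    (hcover : ∀ x : Fin n → ℤˣ,
      ∑ k, (if ∀ i ∈ J k, x i = v k i then w k else 0) = if f x = b then 1 else 0)
    (g : (Fin n → ℤˣ) → ℝ) :
    ∑ x : Fin n → ℤˣ, (if f x = b then (1 : ℝ) else 0) * g x
      = ∑ k, w k * ∑ x : Fin n → ℤˣ, (if ∀ i ∈ J k, x i = v k i then g x else 0) := by
  have h1 : ∀ x : Fin n → ℤˣ, (if f x = b then (1 : ℝ) else 0) * g x
      = ∑ k, (if ∀ i ∈ J k, x i = v k i then w k * g x else 0) := by
    intro x
    rw [← hcover x, Finset.sum_mul]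
    apply Finset.sum_congr rfl
    intro k _
    split_ifs <;> simp
  rw [Finset.sum_congr rfl (fun x _ => h1 x), Finset.sum_comm]
  apply Finset.sum_congr rfl
  intro k _
  rw [Finset.mul_sum]
  apply Finset.sum_congr rfl
  intro x _
  split_ifs <;> simp

theorem rv_f (x : Fin n → ℤˣ) :
    rv (f x) = rv b * (2 * (if f x = b then (1 : ℝ) else 0) - 1) := by
  by_cases h : f x = b
  · rw [if_pos h, h]; ring
  · rw [if_neg h]
    have hfx : f x = -b := by
      rcases rv_cases (f x) with h1 | h1 <;> rcases rv_cases b with h2 | h2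
      · exact absurd (h1.trans h2.symm) h
      · rw [h1, h2]; simp
      · rw [h1, h2]
      · exact absurd (h1.trans h2.symm) h
    rw [hfx]
    have : rv (-b) = - rv b := by simp [rv]
    rw [this]; ring

/-- the signed level-one sum is at most `2 √d` -/
theorem signed_bound (hw : ∀ k, 0 ≤ w k)
    (hcover : ∀ x : Fin n → ℤˣ,
      ∑ k, (if ∀ i ∈ J k, x i = v k i then w k else 0) = if f x = b then 1 else 0)
    (d : ℕ) (hd1 : 1 ≤ d) (hd : ∀ k, 0 < w k → (J k).card ≤ d) (σ : Fin n → ℤˣ) :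
    ∑ i, rv (σ i) * ((∑ x : Fin n → ℤˣ, rv (f x) * rv (x i)) / 2 ^ n)
      ≤ 2 * Real.sqrt d := by
  set t : ℝ := 1 / Real.sqrt d with ht
  have hdR : (1 : ℝ) ≤ (d : ℝ) := by exact_mod_cast hd1
  have hsq1 : 1 ≤ Real.sqrt d := by
    rw [show (1 : ℝ) = Real.sqrt 1 by simp]
    exact Real.sqrt_le_sqrt hdR
  have hsqpos : 0 < Real.sqrt d := by linarith
  have ht0 : 0 < t := by positivity
  have ht1 : t ≤ 1 := by rw [ht, div_le_one hsqpos]; exact hsq1
  set τ : Fin n → ℤˣ := fun i => b * σ i with hτ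
  have hpow : (0 : ℝ) < 2 ^ n := by positivity
  -- the subcube quantities
  set S : ι → ℝ := fun k => ∑ i ∈ J k, rv (τ i) * rv (v k i) with hS
  set P : ι → ℝ := fun k => ∏ i ∈ J k, (1 + t * rv (τ i) * rv (v k i)) with hP
  set c : ι → ℝ := fun k => w k * 2 ^ (n - (J k).card) with hc
  have hc0 : ∀ k, 0 ≤ c k := fun k => mul_nonneg (hw k) (by positivity)
  -- step 1: the level-one sum in terms of the subcubes
  have hcoef : ∀ i : Fin n, ∑ x : Fin n → ℤˣ, rv (f x) * rv (x i)
      = 2 * rv b * ∑ k, w k * (if i ∈ J k then rv (v k i) * 2 ^ (n - (J k).card) else 0) := by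
    intro i
    have h1 : ∀ x : Fin n → ℤˣ, rv (f x) * rv (x i)
        = 2 * rv b * ((if f x = b then (1 : ℝ) else 0) * rv (x i)) - rv b * rv (x i) := by
      intro x
      rw [rv_f f b x]; ring
    rw [Finset.sum_congr rfl (fun x _ => h1 x), Finset.sum_sub_distrib, ← Finset.mul_sum,
      ← Finset.mul_sum, sum_coord_cube, mul_zero, sub_zero,
      cover_sum f b J v w hcover (fun x => rv (x i))]
    congr 1
    apply Finset.sum_congr rfl
    intro k _
    rw [sum_coord_subcube]
  have hL : ∑ i, rv (σ i) * ((∑ x : Fin n → ℤˣ, rv (f x) * rv (x i)) / 2 ^ n)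
      = 2 / 2 ^ n * ∑ k, c k * S k := by
    have h2 : ∀ i : Fin n, rv (σ i) * ((∑ x : Fin n → ℤˣ, rv (f x) * rv (x i)) / 2 ^ n)
        = 2 / 2 ^ n * ∑ k, c k * (if i ∈ J k then rv (τ i) * rv (v k i) else 0) := by
      intro i
      have hτi : rv (τ i) = rv b * rv (σ i) := by rw [hτ]; exact rv_mul b (σ i)
      have e1 : ∀ k, c k * (if i ∈ J k then rv (τ i) * rv (v k i) else 0)
          = rv b * rv (σ i)
            * (w k * (if i ∈ J k then rv (v k i) * 2 ^ (n - (J k).card) else 0)) := by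
        intro k
        rw [hτi]
        simp only [hc]
        split_ifs
        · ring
        · simp
      rw [hcoef i, Finset.sum_congr rfl (fun k _ => e1 k), ← Finset.mul_sum]
      have e2 : ∀ X : ℝ, rv (σ i) * (2 * rv b * X / 2 ^ n)
          = 2 / 2 ^ n * (rv b * rv (σ i) * X) := by
        intro X; ring
      exact e2 _
    rw [Finset.sum_congr rfl (fun i _ => h2 i), ← Finset.mul_sum, Finset.sum_comm]
    congr 1
    apply Finset.sum_congr rfl
    intro k _
    rw [← Finset.mul_sum, hS]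
    congr 1
    rw [Finset.sum_ite_mem, Finset.univ_inter]
  -- step 2: the biased measure of the level set
  have hω0 : ∀ x : Fin n → ℤˣ, 0 ≤ ∏ i, (1 + t * rv (τ i) * rv (x i)) := by
    intro x
    apply Finset.prod_nonneg
    intro i _
    have h1 : rv (τ i) * rv (x i) = if τ i * x i = 1 then 1 else -1 := rv_mul_ite _ _
    rw [mul_assoc, h1]
    split_ifs <;> linarith
  have hmass : ∑ k, c k * P k ≤ 2 ^ n := by
    have h1 : ∑ x : Fin n → ℤˣ, (if f x = b then (1 : ℝ) else 0)
          * ∏ i, (1 + t * rv (τ i) * rv (x i))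
        = ∑ k, c k * P k := by
      rw [cover_sum f b J v w hcover (fun x => ∏ i, (1 + t * rv (τ i) * rv (x i)))]
      apply Finset.sum_congr rfl
      intro k _
      rw [sum_weight_subcube, hc, hP]
      ring
    rw [← h1, ← sum_weight τ t]
    apply Finset.sum_le_sum
    intro x _
    split_ifs
    · simp
    · simp [hω0 x]
  -- step 3: compare
  have hcmp : ∀ k, c k * (S k * t) ≤ c k * P k := by
    intro k
    rcases (hw k).lt_or_eq with hpos | h0
    · exact mul_le_mul_of_nonneg_left (cube_ineq (J k) (v k) τ d hd1 (hd k hpos)) (hc0 k)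
    · have : c k = 0 := by rw [hc]; simp [← h0]
      rw [this]; simp
  have hfin : (∑ k, c k * S k) * t ≤ 2 ^ n := by
    rw [Finset.sum_mul]
    refine le_trans (Finset.sum_le_sum (fun k _ => ?_)) hmass
    rw [mul_assoc]
    exact hcmp k
  rw [hL]
  have hsum_le : (∑ k, c k * S k) ≤ 2 ^ n * Real.sqrt d := by
    have h1 : (∑ k, c k * S k) = ((∑ k, c k * S k) * t) * Real.sqrt d := by
      rw [ht]; field_simp
    rw [h1]
    exact mul_le_mul_of_nonneg_right hfin hsqpos.le
  calc 2 / 2 ^ n * ∑ k, c k * S k ≤ 2 / 2 ^ n * (2 ^ n * Real.sqrt d) :=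
        mul_le_mul_of_nonneg_left hsum_le (by positivity)
    _ = 2 * Real.sqrt d := by field_simp

end Main

theorem fourierCoeff_singleton_real (f : (Fin n → ℤˣ) → ℤˣ) (i : Fin n) :
    ((fourierCoeff f {i} : ℚ) : ℝ) = (∑ x : Fin n → ℤˣ, rv (f x) * rv (x i)) / 2 ^ n := by
  unfold fourierCoeff rv
  push_cast
  simp

/-- One-sided subcube bound: if the level set `f = b` is a fractional disjoint union of subcubes
of codimension at most `d` (with `d ≥ 1`), then `(∑_i |fhat({i})|)^2 ≤ 4 d`. -/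
theorem one_sided_bound {ι : Type} [Fintype ι] (f : (Fin n → ℤˣ) → ℤˣ) (b : ℤˣ)
    (J : ι → Finset (Fin n)) (v : ι → Fin n → ℤˣ) (w : ι → ℚ)
    (hw : ∀ k, 0 ≤ w k)
    (hcover : ∀ x : Fin n → ℤˣ,
      ∑ k, (if ∀ i ∈ J k, x i = v k i then w k else 0) = if f x = b then 1 else 0)
    (d : ℕ) (hd1 : 1 ≤ d) (hd : ∀ k, 0 < w k → (J k).card ≤ d) :
    (∑ i : Fin n, |fourierCoeff f {i}|) ^ 2 ≤ 4 * (d : ℚ) := by
  classical
  set σ : Fin n → ℤˣ := fun i => if 0 ≤ fourierCoeff f {i} then 1 else -1 with hσdef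
  have hσ : ∀ i, ((|fourierCoeff f {i}| : ℚ) : ℝ)
      = rv (σ i) * ((∑ x : Fin n → ℤˣ, rv (f x) * rv (x i)) / 2 ^ n) := by
    intro i
    rw [← fourierCoeff_singleton_real]
    by_cases h : 0 ≤ fourierCoeff f {i}
    · have hs : σ i = 1 := by simp [hσdef, h]
      rw [hs, rv_one, abs_of_nonneg h, one_mul]
    · have h' : fourierCoeff f {i} < 0 := not_le.mp h
      have hs : σ i = -1 := by simp [hσdef, h]
      rw [hs, rv_neg_one, abs_of_neg h']
      push_cast
      ring
  have hcoverR : ∀ x : Fin n → ℤˣ,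
      ∑ k, (if ∀ i ∈ J k, x i = v k i then ((w k : ℚ) : ℝ) else 0)
        = if f x = b then 1 else 0 := by
    intro x
    have h1 := congrArg (fun q : ℚ => (q : ℝ)) (hcover x)
    simp only [Rat.cast_sum] at h1
    rw [← (show ((if f x = b then (1 : ℚ) else 0 : ℚ) : ℝ) = if f x = b then (1 : ℝ) else 0 by
      split_ifs <;> simp), ← h1]
    apply Finset.sum_congr rfl
    intro k _
    split_ifs <;> simp
  have hreal : ((∑ i : Fin n, |fourierCoeff f {i}| : ℚ) : ℝ) ≤ 2 * Real.sqrt d := by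
    rw [Rat.cast_sum, Finset.sum_congr rfl (fun i _ => hσ i)]
    exact signed_bound f b J v (fun k => ((w k : ℚ) : ℝ)) (fun k => by exact_mod_cast hw k)
      hcoverR d hd1 (fun k hk => hd k (by exact_mod_cast hk)) σ
  have hnn : (0 : ℝ) ≤ ((∑ i : Fin n, |fourierCoeff f {i}| : ℚ) : ℝ) := by
    exact_mod_cast Finset.sum_nonneg (fun i (_ : i ∈ Finset.univ) => abs_nonneg (fourierCoeff f {i}))
  have hsq : (((∑ i : Fin n, |fourierCoeff f {i}|) ^ 2 : ℚ) : ℝ) ≤ ((4 * (d : ℚ) : ℚ) : ℝ) := by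
    have h1 : ((∑ i : Fin n, |fourierCoeff f {i}| : ℚ) : ℝ) ^ 2 ≤ (2 * Real.sqrt d) ^ 2 :=
      pow_le_pow_left₀ hnn hreal 2
    have h2 : (2 * Real.sqrt d) ^ 2 = 4 * (d : ℝ) := by
      rw [mul_pow, Real.sq_sqrt (Nat.cast_nonneg d)]; norm_num
    rw [h2] at h1
    push_cast
    push_cast at h1
    exact h1
  exact_mod_cast hsq

end Vale.Agent.Lib.P047.helper3
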